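import Vale.Agent.P264Z.G.Final

/-! # Block matrices and Wirtinger calculus on `ℂ^(n+k) = ℂ^n × ℂ^k` -/

open scoped Manifold ContDiff ComplexOrder Topology
open Set Filter

noncomputable section

namespace Vale.Agent.N264

open Vale.Agent.P272.K Vale.Agent.P264Z

variable {n k : ℕ}

/-- the first `n` coordinates -/
def p1 (n k : ℕ) : Cm (n + k) →L[ℂ] Cm n :=
  ContinuousLinearMap.pi fun i => ContinuousLinearMap.proj (Fin.castAdd k i)

/-- the last `k` coordinates -/
def p2 (n k : ℕ) : Cm (n + k) →L[ℂ] Cm k :=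
  ContinuousLinearMap.pi fun j => ContinuousLinearMap.proj (Fin.natAdd n j)

lemma p1_apply (z : Cm (n + k)) (i : Fin n) : p1 n k z i = z (Fin.castAdd k i) := rfl

lemma p2_apply (z : Cm (n + k)) (j : Fin k) : p2 n k z j = z (Fin.natAdd n j) := rfl

@[simp] lemma p1_append (a : Cm n) (c : Cm k) : p1 n k (Fin.append a c) = a :=
  funext fun i => by rw [p1_apply, Fin.append_left]

@[simp] lemma p2_append (a : Cm n) (c : Cm k) : p2 n k (Fin.append a c) = c :=
  funext fun j => by rw [p2_apply, Fin.append_right]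

lemma cast_ne_nat (i : Fin n) (j : Fin k) : Fin.castAdd k i ≠ Fin.natAdd n j := by
  intro h
  have := congrArg Fin.val h
  simp only [Fin.val_castAdd, Fin.val_natAdd] at this
  omega

lemma p1_single_l (i : Fin n) (c : ℂ) :
    p1 n k (Pi.single (Fin.castAdd k i) c) = Pi.single i c := by
  funext l
  rw [p1_apply]
  simp [Pi.single_apply]

lemma p1_single_r (j : Fin k) (c : ℂ) : p1 n k (Pi.single (Fin.natAdd n j) c) = 0 := by
  funext l
  rw [p1_apply, Pi.single_eq_of_ne (cast_ne_nat l j)]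
  rfl

lemma p2_single_l (i : Fin n) (c : ℂ) : p2 n k (Pi.single (Fin.castAdd k i) c) = 0 := by
  funext l
  rw [p2_apply, Pi.single_eq_of_ne (cast_ne_nat i l).symm]
  rfl

lemma p2_single_r (j : Fin k) (c : ℂ) :
    p2 n k (Pi.single (Fin.natAdd n j) c) = Pi.single j c := by
  funext l
  rw [p2_apply]
  simp [Pi.single_apply]

lemma fderiv_lin' {m l : ℕ} (T : Cm m →L[ℂ] Cm l) {f : Cm l → ℂ} {z : Cm m}
    (hf : DifferentiableAt ℝ f (T z)) (v : Cm m) :
    fderiv ℝ (fun y => f (T y)) z v = fderiv ℝ f (T z) (T v) := by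
  have h := (hf.hasFDerivAt.comp z (T.restrictScalars ℝ).hasFDerivAt).fderiv
  exact congrArg (fun L => L v) h

lemma cd_lin {m l : ℕ} (T : Cm m →L[ℂ] Cm l) {r : WithTop ℕ∞} {z : Cm m} :
    ContDiffAt ℝ r (fun y => T y) z := (T.restrictScalars ℝ).contDiff.contDiffAt

section
variable {z : Cm (n + k)} {f : Cm n → ℂ} {g : Cm k → ℂ}

lemma dz_p1_l (hf : DifferentiableAt ℝ f (p1 n k z)) (i : Fin n) :
    dz (Fin.castAdd k i) (fun y => f (p1 n k y)) z = dz i f (p1 n k z) := by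
  simp only [dz, fderiv_lin' _ hf, p1_single_l]

lemma dz_p1_r (hf : DifferentiableAt ℝ f (p1 n k z)) (j : Fin k) :
    dz (Fin.natAdd n j) (fun y => f (p1 n k y)) z = 0 := by
  simp [dz, fderiv_lin' _ hf, p1_single_r]

lemma dz_p2_l (hg : DifferentiableAt ℝ g (p2 n k z)) (i : Fin n) :
    dz (Fin.castAdd k i) (fun y => g (p2 n k y)) z = 0 := by
  simp [dz, fderiv_lin' _ hg, p2_single_l]

lemma dz_p2_r (hg : DifferentiableAt ℝ g (p2 n k z)) (j : Fin k) :
    dz (Fin.natAdd n j) (fun y => g (p2 n k y)) z = dz j g (p2 n k z) := by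
  simp only [dz, fderiv_lin' _ hg, p2_single_r]

lemma dzb_p1_l (hf : DifferentiableAt ℝ f (p1 n k z)) (i : Fin n) :
    dzb (Fin.castAdd k i) (fun y => f (p1 n k y)) z = dzb i f (p1 n k z) := by
  simp only [dzb, fderiv_lin' _ hf, p1_single_l]

lemma dzb_p1_r (hf : DifferentiableAt ℝ f (p1 n k z)) (j : Fin k) :
    dzb (Fin.natAdd n j) (fun y => f (p1 n k y)) z = 0 := by
  simp [dzb, fderiv_lin' _ hf, p1_single_r]

lemma dzb_p2_l (hg : DifferentiableAt ℝ g (p2 n k z)) (i : Fin n) :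
    dzb (Fin.castAdd k i) (fun y => g (p2 n k y)) z = 0 := by
  simp [dzb, fderiv_lin' _ hg, p2_single_l]

lemma dzb_p2_r (hg : DifferentiableAt ℝ g (p2 n k z)) (j : Fin k) :
    dzb (Fin.natAdd n j) (fun y => g (p2 n k y)) z = dzb j g (p2 n k z) := by
  simp only [dzb, fderiv_lin' _ hg, p2_single_r]

end

/-- the block diagonal matrix -/
def blk (A : Matrix (Fin n) (Fin n) ℂ) (B : Matrix (Fin k) (Fin k) ℂ) :
    Matrix (Fin (n + k)) (Fin (n + k)) ℂ :=
  (Matrix.fromBlocks A 0 0 B).submatrix finSumFinEquiv.symm finSumFinEquiv.symm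

section
variable {A A' : Matrix (Fin n) (Fin n) ℂ} {B B' : Matrix (Fin k) (Fin k) ℂ}

@[simp] lemma blk_ll (i j : Fin n) : blk A B (Fin.castAdd k i) (Fin.castAdd k j) = A i j := by
  simp [blk]

@[simp] lemma blk_lr (i : Fin n) (j : Fin k) : blk A B (Fin.castAdd k i) (Fin.natAdd n j) = 0 := by
  simp [blk]

@[simp] lemma blk_rl (i : Fin k) (j : Fin n) : blk A B (Fin.natAdd n i) (Fin.castAdd k j) = 0 := by
  simp [blk]

@[simp] lemma blk_rr (i j : Fin k) : blk A B (Fin.natAdd n i) (Fin.natAdd n j) = B i j := by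
  simp [blk]

lemma blk_mul : blk A B * blk A' B' = blk (A * A') (B * B') := by
  simp [blk, Matrix.fromBlocks_multiply]

lemma blk_ext {M : Matrix (Fin (n + k)) (Fin (n + k)) ℂ}
    (h1 : ∀ i j, M (Fin.castAdd k i) (Fin.castAdd k j) = A i j)
    (h2 : ∀ i j, M (Fin.castAdd k i) (Fin.natAdd n j) = 0)
    (h3 : ∀ i j, M (Fin.natAdd n i) (Fin.castAdd k j) = 0)
    (h4 : ∀ i j, M (Fin.natAdd n i) (Fin.natAdd n j) = B i j) : M = blk A B := by
  ext i j
  induction i using Fin.addCases <;> induction j using Fin.addCases <;> simp [h1, h2, h3, h4]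

lemma blk_add : blk A B + blk A' B' = blk (A + A') (B + B') :=
  blk_ext (by simp) (by simp) (by simp) (by simp)

lemma blk_neg : -blk A B = blk (-A) (-B) := blk_ext (by simp) (by simp) (by simp) (by simp)

lemma blk_smul (c : ℂ) : c • blk A B = blk (c • A) (c • B) :=
  blk_ext (by simp) (by simp) (by simp) (by simp)

lemma blk_transpose : (blk A B).transpose = blk A.transpose B.transpose :=
  blk_ext (by simp) (by simp) (by simp) (by simp)

lemma blk_map : (blk A B).map (starRingEnd ℂ) =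
    blk (A.map (starRingEnd ℂ)) (B.map (starRingEnd ℂ)) :=
  blk_ext (by simp) (by simp) (by simp) (by simp)

lemma blk_one : blk (1 : Matrix (Fin n) (Fin n) ℂ) (1 : Matrix (Fin k) (Fin k) ℂ) = 1 := by
  simp [blk]

lemma det_blk : (blk A B).det = A.det * B.det := by
  rw [blk, Matrix.det_submatrix_equiv_self, Matrix.det_fromBlocks_zero₂₁]

lemma trace_blk : (blk A B).trace = A.trace + B.trace := by
  simp [Matrix.trace, Fin.sum_univ_add]

lemma inv_blk (hA : IsUnit A.det) (hB : IsUnit B.det) : (blk A B)⁻¹ = blk A⁻¹ B⁻¹ :=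
  Matrix.inv_eq_right_inv (by
    rw [blk_mul, Matrix.mul_nonsing_inv _ hA, Matrix.mul_nonsing_inv _ hB, blk_one])

lemma posDef_blk (hA : A.PosDef) (hB : B.PosDef) : (blk A B).PosDef := by
  refine Matrix.PosDef.submatrix ?_ finSumFinEquiv.symm.injective
  refine Matrix.PosDef.of_dotProduct_mulVec_pos
    (Matrix.IsHermitian.fromBlocks hA.1 (by simp) hB.1) fun x hx => ?_
  have e : x = Sum.elim (x ∘ Sum.inl) (x ∘ Sum.inr) := (Sum.elim_comp_inl_inr x).symm
  have e2 : star x = Sum.elim (star (x ∘ Sum.inl)) (star (x ∘ Sum.inr)) := by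
    funext i; cases i <;> rfl
  rw [Matrix.fromBlocks_mulVec, e2, sumElim_dotProduct_sumElim, Matrix.zero_mulVec,
    Matrix.zero_mulVec, add_zero, zero_add]
  by_cases h1 : x ∘ Sum.inl = 0
  · have h2 : x ∘ Sum.inr ≠ 0 := fun h2 => hx (by rw [e, h1, h2]; simp)
    exact add_pos_of_nonneg_of_pos (hA.posSemidef.dotProduct_mulVec_nonneg _)
      (hB.dotProduct_mulVec_pos h2)
  · exact add_pos_of_pos_of_nonneg (hA.dotProduct_mulVec_pos h1)
      (hB.posSemidef.dotProduct_mulVec_nonneg _)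

lemma posDef_of_blk (h : (blk A B).PosDef) : A.PosDef := by
  have := h.submatrix (e := Fin.castAdd k) (Fin.castAdd_injective n k)
  convert this using 1
  ext i j
  simp

lemma det_re_blk (hA : A.PosDef) : (blk A B).det.re = A.det.re * B.det.re := by
  have h := (Complex.pos_iff.1 hA.det_pos).2
  rw [det_blk, Complex.mul_re, ← h, zero_mul, sub_zero]

end

section
variable {z : Cm (n + k)}

lemma cHess_p1 {f : Cm n → ℝ} (hf : ContDiffAt ℝ 2 f (p1 n k z)) :
    cHess (fun y => f (p1 n k y)) z = blk (cHess f (p1 n k z)) 0 := by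
  have h2 := ofReal_contDiffAt hf
  have hev : ∀ᶠ y in 𝓝 z, DifferentiableAt ℝ (fun y => (f y : ℂ)) (p1 n k y) :=
    (p1 n k).continuous.continuousAt.eventually
      ((h2.eventually (by simp)).mono fun y hy => hy.differentiableAt (by simp))
  have hl : ∀ j, dzb (Fin.castAdd k j) (fun y => (f (p1 n k y) : ℂ)) =ᶠ[𝓝 z]
      fun y => dzb j (fun y => (f y : ℂ)) (p1 n k y) := fun j =>
    hev.mono fun y hy => dzb_p1_l hy j
  have hr : ∀ j, dzb (Fin.natAdd n j) (fun y => (f (p1 n k y) : ℂ)) =ᶠ[𝓝 z] fun _ => 0 := fun j =>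
    hev.mono fun y hy => dzb_p1_r hy j
  refine blk_ext (fun i j => ?_) (fun i j => ?_) (fun i j => ?_) (fun i j => ?_)
  · rw [cHess_apply, dz_congr (hl j), dz_p1_l (differentiableAt_dzb h2), cHess_apply]
  · rw [cHess_apply, dz_congr (hr j), dz_const]
  · rw [cHess_apply, dz_congr (hl j), dz_p1_r (differentiableAt_dzb h2)]
  · rw [cHess_apply, dz_congr (hr j), dz_const, Matrix.zero_apply]

lemma cHess_p2 {g : Cm k → ℝ} (hg : ContDiffAt ℝ 2 g (p2 n k z)) :
    cHess (fun y => g (p2 n k y)) z = blk 0 (cHess g (p2 n k z)) := by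
  have h2 := ofReal_contDiffAt hg
  have hev : ∀ᶠ y in 𝓝 z, DifferentiableAt ℝ (fun y => (g y : ℂ)) (p2 n k y) :=
    (p2 n k).continuous.continuousAt.eventually
      ((h2.eventually (by simp)).mono fun y hy => hy.differentiableAt (by simp))
  have hl : ∀ j, dzb (Fin.castAdd k j) (fun y => (g (p2 n k y) : ℂ)) =ᶠ[𝓝 z] fun _ => 0 := fun j =>
    hev.mono fun y hy => dzb_p2_l hy j
  have hr : ∀ j, dzb (Fin.natAdd n j) (fun y => (g (p2 n k y) : ℂ)) =ᶠ[𝓝 z]
      fun y => dzb j (fun y => (g y : ℂ)) (p2 n k y) := fun j =>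
    hev.mono fun y hy => dzb_p2_r hy j
  refine blk_ext (fun i j => ?_) (fun i j => ?_) (fun i j => ?_) (fun i j => ?_)
  · rw [cHess_apply, dz_congr (hl j), dz_const, Matrix.zero_apply]
  · rw [cHess_apply, dz_congr (hr j), dz_p2_l (differentiableAt_dzb h2)]
  · rw [cHess_apply, dz_congr (hl j), dz_const]
  · rw [cHess_apply, dz_congr (hr j), dz_p2_r (differentiableAt_dzb h2), cHess_apply]

lemma jmat_prod {τ : Cm n → Cm n} {σ : Cm k → Cm k} (hτ : ContDiffAt ℂ ω τ (p1 n k z))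
    (hσ : ContDiffAt ℂ ω σ (p2 n k z)) :
    jmat (fun y => Fin.append (τ (p1 n k y)) (σ (p2 n k y))) z =
      blk (jmat τ (p1 n k z)) (jmat σ (p2 n k z)) := by
  have h1 : ∀ i, DifferentiableAt ℝ (fun y => τ y i) (p1 n k z) := fun i =>
    (differentiableAt_comp_apply (hτ.differentiableAt (by simp)) i).restrictScalars ℝ
  have h2 : ∀ i, DifferentiableAt ℝ (fun y => σ y i) (p2 n k z) := fun i =>
    (differentiableAt_comp_apply (hσ.differentiableAt (by simp)) i).restrictScalars ℝ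
  refine blk_ext (fun i j => ?_) (fun i j => ?_) (fun i j => ?_) (fun i j => ?_) <;>
    simp only [jmat, Matrix.of_apply, Fin.append_left, Fin.append_right]
  · exact dz_p1_l (h1 i) j
  · exact dz_p1_r (h1 i) j
  · exact dz_p2_l (h2 i) j
  · exact dz_p2_r (h2 i) j

lemma contDiffAt_append {𝕜 : Type*} [NontriviallyNormedField 𝕜] [NormedAlgebra 𝕜 ℂ]
    {E : Type*} [NormedAddCommGroup E] [NormedSpace 𝕜 E] {r : WithTop ℕ∞} {a : E → Cm n}
    {c : E → Cm k} {x : E} (ha : ContDiffAt 𝕜 r a x) (hc : ContDiffAt 𝕜 r c x) :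
    ContDiffAt 𝕜 r (fun y => (Fin.append (a y) (c y) : Cm (n + k))) x := by
  refine contDiffAt_pi.2 fun i => ?_
  induction i using Fin.addCases with
  | left i => simpa only [Fin.append_left] using contDiffAt_pi.1 ha i
  | right i => simpa only [Fin.append_right] using contDiffAt_pi.1 hc i

lemma holo_prod {τ : Cm n → Cm n} {σ : Cm k → Cm k} (hτ : ContDiffAt ℂ ω τ (p1 n k z))
    (hσ : ContDiffAt ℂ ω σ (p2 n k z)) :
    ContDiffAt ℂ ω (fun y => (Fin.append (τ (p1 n k y)) (σ (p2 n k y)) : Cm (n + k))) z :=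
  contDiffAt_append (hτ.comp z (p1 n k).contDiff.contDiffAt) (hσ.comp z (p2 n k).contDiff.contDiffAt)

/-- the complex Hessian of `log det` of a product metric -/
lemma ric_blk {G : Cm (n + k) → Matrix (Fin (n + k)) (Fin (n + k)) ℂ}
    {g : Cm n → Matrix (Fin n) (Fin n) ℂ} {g' : Cm k → Matrix (Fin k) (Fin k) ℂ}
    (hG : G =ᶠ[𝓝 z] fun y => blk (g (p1 n k y)) (g' (p2 n k y)))
    (hs : ∀ i j, ContDiffAt ℝ ∞ (fun y => g y i j) (p1 n k z))
    (hs' : ∀ i j, ContDiffAt ℝ ∞ (fun y => g' y i j) (p2 n k z))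
    (hp : ∀ᶠ y in 𝓝 (p1 n k z), (g y).PosDef) (hp' : ∀ᶠ y in 𝓝 (p2 n k z), (g' y).PosDef) :
    cHess (fun y => Real.log (G y).det.re) z =
      blk (cHess (fun y => Real.log (g y).det.re) (p1 n k z))
        (cHess (fun y => Real.log (g' y).det.re) (p2 n k z)) := by
  have l1 : ContDiffAt ℝ 2 (fun y => Real.log (g y).det.re) (p1 n k z) :=
    ((Complex.reCLM.contDiff.contDiffAt.comp _ (contDiffAt_det hs)).log
      (det_re_pos hp.self_of_nhds).ne').of_le two_le
  have l2 : ContDiffAt ℝ 2 (fun y => Real.log (g' y).det.re) (p2 n k z) :=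
    ((Complex.reCLM.contDiff.contDiffAt.comp _ (contDiffAt_det hs')).log
      (det_re_pos hp'.self_of_nhds).ne').of_le two_le
  have e : (fun y => Real.log (G y).det.re) =ᶠ[𝓝 z] fun y =>
      Real.log (g (p1 n k y)).det.re + Real.log (g' (p2 n k y)).det.re := by
    filter_upwards [hG, (p1 n k).continuous.continuousAt.eventually hp,
      (p2 n k).continuous.continuousAt.eventually hp'] with y h1 h2 h3
    rw [h1, det_re_blk h2, Real.log_mul (det_re_pos h2).ne' (det_re_pos h3).ne']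
  rw [cHess_congr e, cHess_add (f := fun y => Real.log (g (p1 n k y)).det.re)
    (g := fun y => Real.log (g' (p2 n k y)).det.re) (l1.comp z (cd_lin _)) (l2.comp z (cd_lin _)),
    cHess_p1 (f := fun y => Real.log (g y).det.re) l1,
    cHess_p2 (g := fun y => Real.log (g' y).det.re) l2, blk_add, add_zero, zero_add]

lemma scal_blk {G : Cm (n + k) → Matrix (Fin (n + k)) (Fin (n + k)) ℂ}
    {g : Cm n → Matrix (Fin n) (Fin n) ℂ} {g' : Cm k → Matrix (Fin k) (Fin k) ℂ}
    (hG : G =ᶠ[𝓝 z] fun y => blk (g (p1 n k y)) (g' (p2 n k y)))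
    (hs : ∀ i j, ContDiffAt ℝ ∞ (fun y => g y i j) (p1 n k z))
    (hs' : ∀ i j, ContDiffAt ℝ ∞ (fun y => g' y i j) (p2 n k z))
    (hp : ∀ᶠ y in 𝓝 (p1 n k z), (g y).PosDef) (hp' : ∀ᶠ y in 𝓝 (p2 n k z), (g' y).PosDef) :
    scal G z = scal g (p1 n k z) + scal g' (p2 n k z) := by
  unfold scal
  rw [ric_blk hG hs hs' hp hp', hG.eq_of_nhds,
    inv_blk hp.self_of_nhds.det_pos.ne'.isUnit hp'.self_of_nhds.det_pos.ne'.isUnit, blk_neg,
    blk_mul, trace_blk, Complex.add_re]

end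

end Vale.Agent.N264

end
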