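import Vale.Agent.P264Z.G.Defs

/-! # Long-time existence of the Calabi flow in a given dimension -/

open scoped Manifold ContDiff
open Set

namespace Vale.Agent.N264

open Vale.Agent.P272.K Vale.Agent.P264Z

/-- Chen's conjecture in complex dimension `n`: for every compact connected complex manifold `X` of
dimension `n` and every smooth Kähler form `w` on `X`, with `s` the average of its scalar
curvature, the Calabi flow from `w` has a smooth solution on `[0,T)` for every `T`, that is,
`T_max = ∞`. -/
def LongTime (n : ℕ) : Prop :=
  ∀ (X : Type) [TopologicalSpace X] [T2Space X] [CompactSpace X] [ConnectedSpace X]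
    [ChartedSpace (Cm n) X] [IsManifold 𝓘(ℂ, Cm n) ω X]
    (w : Chart n X → Cm n → Matrix (Fin n) (Fin n) ℂ) (s : ℝ), IsKahler w → IsAverageScal w s →
    ∀ T : ℝ, ∃ φ, IsCalabiFlow w s (Ico 0 T) φ

end Vale.Agent.N264
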