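import Vale.Agent.N264.Restart
import Vale.Agent.N264.Defs

/-! # Finite time singularities in every dimension `n ≥ 10` -/

open scoped Manifold ContDiff ComplexOrder Topology
open Set Filter

noncomputable section

namespace Vale.Agent.N264

open Vale.Agent.P272.K Vale.Agent.P264Z

attribute [local instance] prodCS prodMan

lemma ico_sub {T : ℝ} : ∀ t ∈ Ico (0 : ℝ) T, 0 ≤ t ∧ Icc 0 t ⊆ Ico 0 T :=
  fun _ ht => ⟨ht.1, Icc_subset_Ico_right ht.2⟩

lemma scal_fs' {k : ℕ} {b : ℝ} (hb : 0 < b) (e : Chart k (CP k)) (z : Cm k) :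
    scal (fs b e) z = k * ((k + 1) / b) := scal_of_ke (Sc.fs_posDef hb e z) (ric_fs hb e z)

/-- the conjecture in dimension `n + k` implies the conjecture in dimension `n` -/
theorem longTime_of_add {n k : ℕ} (h : LongTime (n + k)) : LongTime n := by
  intro X _ _ _ _ _ _ w s hw _ T
  have hf := isKahler_fs (n := k) one_pos
  have hW := isKahler_pw hw hf
  obtain ⟨S, hS⟩ := exists_average hW.toIsHermitian
  obtain ⟨φ, hφ⟩ := h (X × CP k) _ S hW hS T
  exact ⟨_, shift_const (descend hw hf (CP.pt 0 0) (fs_transitive _)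
    (fun e y _ => scal_fs' one_pos e _) ico_sub hφ) s⟩

theorem longTime_mono {m n : ℕ} (hmn : m ≤ n) (h : LongTime n) : LongTime m := by
  obtain ⟨k, rfl⟩ := Nat.exists_eq_add_of_le hmn
  exact longTime_of_add h

theorem examples {m : ℕ} [NeZero m] (h : NoGlobal m) (k : ℕ) :
    ∃ (X : Type) (_ : TopologicalSpace X) (_ : T2Space X) (_ : CompactSpace X)
      (_ : ConnectedSpace X) (_ : ChartedSpace (Cm (m + k)) X)
      (_ : IsManifold 𝓘(ℂ, Cm (m + k)) ω X)
      (w : Chart (m + k) X → Cm (m + k) → Matrix (Fin (m + k)) (Fin (m + k)) ℂ) (l : ℝ),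
      IsKahler w ∧ 0 < l ∧
      (∀ e x, At e x → -cHess (fun y => Real.log (w e y).det.re) (e x) = (l : ℂ) • w e (e x) ∧
        scal (w e) (e x) = (m + k : ℕ) * l) ∧
      IsCalabiFlow w ((m + k : ℕ) * l) (Ici 0) (fun _ _ => 0) ∧
      ∀ ε > 0, ∃ u : X → ℝ,
        (∀ (e : Chart (m + k) X) x, At e x → ContDiffAt ℝ ∞ (fun z => u (e.symm z)) (e x)) ∧
        IsKahler (addDd w u) ∧ (∃ s, IsAverageScal (addDd w u) s) ∧
        ∀ s, ∀ T > ε, ¬∃ φ, IsCalabiFlow (addDd w u) s (Ico 0 T) φ := by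
  obtain ⟨b, m₀, hb, hm, ha, hno⟩ := h
  obtain ⟨F₀, h₀, hpos, hP⟩ := init_exists hb hm ha
  have hw := isKahler_wF (n := m) hb h₀ hpos
  have key : ∀ s, ∀ T > 1, ¬∃ φ, IsCalabiFlow (wF (n := m) b F₀) s (Ico 0 T) φ :=
    fun s T hT ⟨φ, hφ⟩ => hno (sol_of_flow hb h₀ hpos hm.continuous hP hT hφ)
  obtain ⟨b', hb', hbb⟩ : ∃ b' : ℝ, 0 < b' ∧ (k + 1) / b' = (m + 1) / b :=
    ⟨(k + 1) * b / (m + 1), by positivity, by field_simp⟩
  have hf := isKahler_fs (n := m) hb
  have hf' := isKahler_fs (n := k) hb'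
  have hW := isKahler_pw hf hf'
  have hW1 := isKahler_pw hw hf'
  have hu₁ : SmoothFn (n := m + k) fun p : CP m × CP k => F₀ (Yc p.1) :=
    smoothFn_fst (smoothFn_Yc h₀)
  have hn : Near (addDd (pw (fs b) (fs b')) fun p : CP m × CP k => F₀ (Yc p.1))
      (pw (wF b F₀) (fs b')) := by
    intro E p hp
    obtain ⟨e, e', g, g', rfl⟩ := at_pc hp
    rw [pw_pc g g']
    exact addDd_pw_ev (u := fun x => F₀ (Yc x)) (smoothFn_Yc h₀) g g'
  have h1 : ∀ (E : Chart (m + k) (CP m × CP k)) p, At E p →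
      -cHess (fun y => Real.log (pw (fs b) (fs b') E y).det.re) (E p) =
        (((m + 1) / b : ℝ) : ℂ) • pw (fs b) (fs b') E (E p) := by
    intro E p hp
    obtain ⟨e, e', g, g', rfl⟩ := at_pc hp
    rw [pw_pc g g', ric_blk (g := fs b e) (g' := fs b' e') EventuallyEq.rfl
      (by rw [p1_pc]; exact hf.smooth e _ g) (by rw [p2_pc]; exact hf'.smooth e' _ g')
      (Eventually.of_forall (Sc.fs_posDef hb e)) (Eventually.of_forall (Sc.fs_posDef hb' e')),
      blk_neg, ric_fs hb, ric_fs hb', hbb, blk_smul]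
  have h2 := fun E p hp => scal_of_ke (hW.posDef E p hp) (h1 E p hp)
  refine ⟨CP m × CP k, inferInstance, inferInstance, inferInstance, inferInstance, inferInstance,
    inferInstance, pw (fs b) (fs b'), (m + 1) / b, hW, by positivity,
    fun E p hp => ⟨h1 E p hp, h2 E p hp⟩, ?_, fun ε hε => ?_⟩
  · have e0 : addDd (pw (fs (n := m) b) (fs (n := k) b')) (fun _ => 0) = pw (fs b) (fs b') := by
      funext e z
      simp [addDd, cHess_const]
    exact ⟨fun _ _ _ _ _ => contDiffWithinAt_const, fun _ => rfl,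
      fun _ _ E p hp => by rw [e0]; exact hW.posDef E p hp,
      fun _ _ E p hp => by rw [e0, h2 E p hp, sub_self]; exact hasDerivWithinAt_const _ _ _⟩
  · obtain ⟨u, hu, hK, hno'⟩ := short_time hW1 (fun T hT ⟨φ, hφ⟩ => key _ T hT
      ⟨_, descend hw hf' (CP.pt 0 0) (fs_transitive _) (fun e y _ => scal_fs' hb' e _) ico_sub hφ⟩)
      hε
    have hn2 : Near (addDd (pw (fs b) (fs b')) fun p : CP m × CP k => F₀ (Yc p.1) + u p)
        (addDd (pw (wF b F₀) (fs b')) u) := fun E p hp =>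
      ((near_addDd hu₁ hu E p hp).symm).trans (hn.addDd u E p hp)
    have hK2 := isKahler_addDd hW (AMP.sm_add hu₁ hu) fun E p hp => by
      rw [(hn2 E p hp).eq_of_nhds]; exact hK.posDef E p hp
    exact ⟨fun p => F₀ (Yc p.1) + u p, AMP.sm_add hu₁ hu, hK2, exists_average hK2.toIsHermitian,
      fun s T hT ⟨φ, hφ⟩ => hno' s T hT ⟨φ, flow_congr hn2 hφ⟩⟩

theorem not_longTime {m : ℕ} [NeZero m] (h : NoGlobal m) : ¬LongTime m := by
  intro hL
  obtain ⟨w, hw, -, ⟨s, hs⟩, hno, -⟩ := final_n h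
  exact hno s 2 one_lt_two (hL (CP m) w s hw hs 2)

end Vale.Agent.N264

end
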