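import Vale.Agent.N264.Final
import Vale.Agent.P264Z.S.Main
import Vale.Agent.P264Z.F.All
import Vale.Agent.P264Z.A.Shoot
import Vale.Agent.P264Z.E.LinA
import Vale.Agent.P264Z.E.Cont
import Vale.Agent.P264Z.E.Fin

/-!
# P264: finite time singularities of the Calabi flow in every dimension `n ≥ 10`

(1) Chen's conjecture is false. (2) In every dimension `n ≥ 10` there is a Kähler-Einstein
manifold of positive scalar curvature whose Kähler class contains forms with arbitrarily small
existence time. (3) The set of dimensions in which the conjecture holds is an initial segment.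
-/

open scoped Manifold ContDiff
open Set Vale.Agent.P272.K Vale.Agent.P264Z Vale.Agent.N264

theorem Vale.Agent.N264.old_all_dimensions :
    (¬ ∀ n, LongTime n) ∧
    (∀ n ≥ 10, ∃ (X : Type) (_ : TopologicalSpace X) (_ : T2Space X) (_ : CompactSpace X)
      (_ : ConnectedSpace X) (_ : ChartedSpace (Cm n) X) (_ : IsManifold 𝓘(ℂ, Cm n) ω X)
      (w : Chart n X → Cm n → Matrix (Fin n) (Fin n) ℂ) (l : ℝ), IsKahler w ∧ 0 < l ∧
      (∀ e x, At e x → -cHess (fun y => Real.log (w e y).det.re) (e x) = (l : ℂ) • w e (e x) ∧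
        scal (w e) (e x) = n * l) ∧
      IsCalabiFlow w (n * l) (Ici 0) (fun _ _ => 0) ∧
      ∀ ε > 0, ∃ u : X → ℝ,
        (∀ (e : Chart n X) x, At e x → ContDiffAt ℝ ∞ (fun z => u (e.symm z)) (e x)) ∧
        IsKahler (addDd w u) ∧ (∃ s, IsAverageScal (addDd w u) s) ∧
        ∀ s, ∀ T > ε, ¬∃ φ, IsCalabiFlow (addDd w u) s (Ico 0 T) φ) ∧
    ∀ m n, m ≤ n → LongTime n → LongTime m := by
  obtain ⟨σ, hσ⟩ := exists_shrinker
  have h := noGlobal_of fall shooting (lin_ineq fall) (contCut fall) hσ
  refine ⟨fun hL => not_longTime h (hL 10), fun n hn => ?_, fun _ _ => longTime_mono⟩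
  obtain ⟨k, rfl⟩ := Nat.exists_eq_add_of_le hn
  exact examples h k
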