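import Vale.Agent.N264.Blk

/-! # Products of Kähler manifolds, and descent of the Calabi flow along a homogeneous factor -/

open scoped Manifold ContDiff ComplexOrder Topology
open Set Filter

noncomputable section

namespace Vale.Agent.N264

open Vale.Agent.P272.K Vale.Agent.P264Z

variable {n k : ℕ} {X Y : Type} [TopologicalSpace X] [TopologicalSpace Y]

/-- the product chart -/
def pc (e : Chart n X) (e' : Chart k Y) : Chart (n + k) (X × Y) :=
  (e.prod e').transHomeomorph (Fin.appendHomeomorph n k)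

lemma pc_apply (e : Chart n X) (e' : Chart k Y) (p : X × Y) :
    pc e e' p = Fin.append (e p.1) (e' p.2) := rfl

lemma pc_symm (e : Chart n X) (e' : Chart k Y) (z : Cm (n + k)) :
    (pc e e').symm z = (e.symm (p1 n k z), e'.symm (p2 n k z)) := rfl

lemma pc_source (e : Chart n X) (e' : Chart k Y) : (pc e e').source = e.source ×ˢ e'.source := rfl

lemma p1_pc (e : Chart n X) (e' : Chart k Y) (p : X × Y) : p1 n k (pc e e' p) = e p.1 := by
  rw [pc_apply, p1_append]

lemma p2_pc (e : Chart n X) (e' : Chart k Y) (p : X × Y) : p2 n k (pc e e' p) = e' p.2 := by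
  rw [pc_apply, p2_append]

lemma pc_inj {e f : Chart n X} {e' f' : Chart k Y} (h : pc e e' = pc f f') {x : X} {y : Y}
    (hx : x ∈ e.source) (hy : y ∈ e'.source) : e = f ∧ e' = f' := by
  have hs : e.source ×ˢ e'.source = f.source ×ˢ f'.source := by rw [← pc_source, h, pc_source]
  rw [Set.prod_eq_prod_iff_of_nonempty ⟨(x, y), hx, hy⟩] at hs
  refine ⟨OpenPartialHomeomorph.ext _ _ (fun a => ?_) (fun z => ?_) hs.1,
    OpenPartialHomeomorph.ext _ _ (fun a => ?_) (fun z => ?_) hs.2⟩
  · rw [← p1_pc e e' (a, y), h, p1_pc]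
  · have := congrArg Prod.fst (congrArg (fun E : Chart (n + k) (X × Y) =>
      E.symm (Fin.append z 0)) h)
    simpa only [pc_symm, p1_append] using this
  · rw [← p2_pc e e' (x, a), h, p2_pc]
  · have := congrArg Prod.snd (congrArg (fun E : Chart (n + k) (X × Y) =>
      E.symm (Fin.append 0 z)) h)
    simpa only [pc_symm, p2_append] using this

open Classical in
/-- the product of two forms -/
def pw (w : Chart n X → Cm n → Matrix (Fin n) (Fin n) ℂ)
    (w' : Chart k Y → Cm k → Matrix (Fin k) (Fin k) ℂ) (E : Chart (n + k) (X × Y))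
    (z : Cm (n + k)) : Matrix (Fin (n + k)) (Fin (n + k)) ℂ :=
  if h : ∃ q : Chart n X × Chart k Y, pc q.1 q.2 = E then
    blk (w h.choose.1 (p1 n k z)) (w' h.choose.2 (p2 n k z)) else 0

variable [ChartedSpace (Cm n) X] [ChartedSpace (Cm k) Y]

variable (n k X Y) in
/-- the product atlas -/
@[reducible] def prodCS : ChartedSpace (Cm (n + k)) (X × Y) where
  atlas := {E | ∃ e ∈ atlas (Cm n) X, ∃ e' ∈ atlas (Cm k) Y, pc e e' = E}
  chartAt p := pc (chartAt (Cm n) p.1) (chartAt (Cm k) p.2)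
  mem_chart_source p := ⟨mem_chart_source _ p.1, mem_chart_source _ p.2⟩
  chart_mem_atlas p := ⟨_, chart_mem_atlas _ p.1, _, chart_mem_atlas _ p.2, rfl⟩

attribute [local instance] prodCS

lemma at_pc {E : Chart (n + k) (X × Y)} {p : X × Y} (h : At E p) :
    ∃ e e', At e p.1 ∧ At e' p.2 ∧ pc e e' = E := by
  obtain ⟨⟨e, he, e', he', rfl⟩, h⟩ := h
  exact ⟨e, e', ⟨he, h.1⟩, ⟨he', h.2⟩, rfl⟩

lemma at_pc' {e : Chart n X} {e' : Chart k Y} {x : X} {y : Y} (h : At e x) (h' : At e' y) :
    At (pc e e') (x, y) := ⟨⟨e, h.1, e', h'.1, rfl⟩, h.2, h'.2⟩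

variable {w : Chart n X → Cm n → Matrix (Fin n) (Fin n) ℂ}
  {w' : Chart k Y → Cm k → Matrix (Fin k) (Fin k) ℂ} {e f : Chart n X} {e' f' : Chart k Y}
  {x : X} {y : Y}

lemma pw_pc (h : At e x) (h' : At e' y) :
    pw w w' (pc e e') = fun z => blk (w e (p1 n k z)) (w' e' (p2 n k z)) := by
  funext z
  have hex : ∃ q : Chart n X × Chart k Y, pc q.1 q.2 = pc e e' := ⟨(e, e'), rfl⟩
  obtain ⟨h1, h2⟩ := pc_inj hex.choose_spec.symm h.2 h'.2
  rw [pw, dif_pos hex, ← h1, ← h2]

lemma addDd_pw {u : X → ℝ} (h : At e x) (h' : At e' y) {z : Cm (n + k)}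
    (hu : ContDiffAt ℝ 2 (fun a => u (e.symm a)) (p1 n k z)) :
    addDd (pw w w') (fun p => u p.1) (pc e e') z =
      blk (addDd w u e (p1 n k z)) (w' e' (p2 n k z)) := by
  unfold addDd
  simp only [pc_symm]
  rw [pw_pc h h', cHess_p1 (f := fun a => u (e.symm a)) hu, blk_add, add_zero]

lemma addDd_pw_ev {u : X → ℝ} (hu : SmoothFn (n := n) u) (h : At e x) (h' : At e' y) :
    addDd (pw w w') (fun p => u p.1) (pc e e') =ᶠ[𝓝 (pc e e' (x, y))]
      fun z => blk (addDd w u e (p1 n k z)) (w' e' (p2 n k z)) := by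
  have h1 : ∀ᶠ z in 𝓝 (pc e e' (x, y)), p1 n k z ∈ e.target :=
    (p1 n k).continuous.continuousAt.eventually (by rw [p1_pc]; exact h.nhds_target)
  filter_upwards [h1] with z hz
  refine addDd_pw h h' ?_
  have := hu e _ (At.of_target h.1 hz)
  rw [e.right_inv hz] at this
  exact this.of_le two_le

lemma posDef_ev {g : Chart n X → Cm n → Matrix (Fin n) (Fin n) ℂ}
    (hg : ∀ e x, At e x → (g e (e x)).PosDef) (h : At e x) : ∀ᶠ z in 𝓝 (e x), (g e z).PosDef := by
  filter_upwards [h.nhds_target] with z hz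
  have := hg e _ (At.of_target h.1 hz)
  rwa [e.right_inv hz] at this

lemma smoothFn_fst {u : X → ℝ} (hu : SmoothFn (n := n) u) :
    SmoothFn (n := n + k) (fun p : X × Y => u p.1) := by
  intro E p hp
  obtain ⟨e, e', h, h', rfl⟩ := at_pc hp
  simp only [pc_symm]
  exact ContDiffAt.comp (g := fun a => u (e.symm a)) _ (by rw [p1_pc]; exact hu e _ h) (cd_lin _)

variable [IsManifold 𝓘(ℂ, Cm n) ω X] [IsManifold 𝓘(ℂ, Cm k) ω Y]

variable (n k X Y) in
lemma prodMan : IsManifold 𝓘(ℂ, Cm (n + k)) ω (X × Y) := by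
  apply isManifold_of_contDiffOn
  rintro E E' ⟨e, he, e', he', rfl⟩ ⟨f, hf, f', hf', rfl⟩ z hz
  simp only [modelWithCornersSelf_coe, modelWithCornersSelf_coe_symm, Function.comp_id,
    Function.id_comp, range_id, inter_univ, preimage_id] at hz ⊢
  have h1 : p1 n k z ∈ e.target := hz.1.1
  have h2 : p2 n k z ∈ e'.target := hz.1.2
  have t1 := transition (At.of_target he h1) (e' := f) ⟨hf, hz.2.1⟩
  have t2 := transition (At.of_target he' h2) (e' := f') ⟨hf', hz.2.2⟩
  rw [e.right_inv h1] at t1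
  rw [e'.right_inv h2] at t2
  exact (holo_prod t1 t2).contDiffWithinAt

attribute [local instance] prodMan

lemma isKahler_pw (hw : IsKahler w) (hw' : IsKahler w') : IsKahler (pw w w') where
  smooth E p hp i j := by
    obtain ⟨e, e', h, h', rfl⟩ := at_pc hp
    rw [pw_pc h h']
    induction i using Fin.addCases <;> induction j using Fin.addCases <;>
      simp only [blk_ll, blk_lr, blk_rl, blk_rr]
    · exact ContDiffAt.comp (g := fun a => w e a _ _) _
        (by rw [p1_pc]; exact hw.smooth e _ h _ _) (cd_lin _)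
    · exact contDiffAt_const
    · exact contDiffAt_const
    · exact ContDiffAt.comp (g := fun a => w' e' a _ _) _
        (by rw [p2_pc]; exact hw'.smooth e' _ h' _ _) (cd_lin _)
  posDef E p hp := by
    obtain ⟨e, e', h, h', rfl⟩ := at_pc hp
    rw [pw_pc h h']
    simp only [p1_pc, p2_pc]
    exact posDef_blk (hw.posDef e _ h) (hw'.posDef e' _ h')
  change E E' p hp hp' := by
    obtain ⟨e, e', h, h', rfl⟩ := at_pc hp
    obtain ⟨f, f', g, g', rfl⟩ := at_pc hp'
    have hj : jacM (pc e e') (pc f f') p = blk (jacM e f p.1) (jacM e' f' p.2) := by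
      have := jmat_prod (z := pc e e' p) (τ := fun a => f (e.symm a)) (σ := fun a => f' (e'.symm a))
        (by rw [p1_pc]; exact transition h g) (by rw [p2_pc]; exact transition h' g')
      rw [p1_pc, p2_pc] at this
      exact this
    rw [pw_pc h h', pw_pc g g', hj]
    simp only [p1_pc, p2_pc]
    rw [blk_transpose, blk_map, blk_mul, blk_mul, ← hw.change e f _ h g, ← hw'.change e' f' _ h' g']
  closed E p hp i j l := by
    obtain ⟨e, e', h, h', rfl⟩ := at_pc hp
    have d1 : ∀ i j, DifferentiableAt ℝ (fun a => w e a i j) (p1 n k (pc e e' p)) := fun i j => by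
      rw [p1_pc]; exact (hw.smooth e _ h i j).differentiableAt (by simp)
    have d2 : ∀ i j, DifferentiableAt ℝ (fun a => w' e' a i j) (p2 n k (pc e e' p)) := fun i j => by
      rw [p2_pc]; exact (hw'.smooth e' _ h' i j).differentiableAt (by simp)
    rw [pw_pc h h']
    induction i using Fin.addCases <;> induction j using Fin.addCases <;>
      induction l using Fin.addCases <;> simp only [blk_ll, blk_lr, blk_rl, blk_rr, dz_const]
    · rw [dz_p1_l (d1 _ _), dz_p1_l (d1 _ _), p1_pc]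
      exact hw.closed e _ h _ _ _
    · exact dz_p1_r (d1 _ _) _
    · exact (dz_p2_l (d2 _ _) _).symm
    · exact (dz_p1_r (d1 _ _) _).symm
    · exact dz_p2_l (d2 _ _) _
    · rw [dz_p2_r (d2 _ _), dz_p2_r (d2 _ _), p2_pc]
      exact hw'.closed e' _ h' _ _ _

omit [IsManifold 𝓘(ℂ, Cm k) ω Y] in
lemma isIso_pw (hw : IsKahler w) {U : Y → Y} (hU : IsIso w' U) :
    IsIso (pw w w') (fun p : X × Y => (p.1, U p.2)) where
  cont := continuous_fst.prodMk (hU.cont.comp continuous_snd)
  holo E E' p hp hp' := by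
    obtain ⟨e, e', h, h', rfl⟩ := at_pc hp
    obtain ⟨f, f', g, g', rfl⟩ := at_pc hp'
    exact holo_prod (τ := fun a => f (e.symm a)) (σ := fun a => f' (U (e'.symm a)))
      (by rw [p1_pc]; exact transition h g) (by rw [p2_pc]; exact hU.holo e' f' _ h' g')
  pres E E' p hp hp' := by
    obtain ⟨e, e', h, h', rfl⟩ := at_pc hp
    obtain ⟨f, f', g, g', rfl⟩ := at_pc hp'
    have hj : jmat (fun z => pc f f' (((pc e e').symm z).1, U ((pc e e').symm z).2)) (pc e e' p) =
        blk (jacM e f p.1) (jmat (fun a => f' (U (e'.symm a))) (e' p.2)) := by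
      have := jmat_prod (z := pc e e' p) (τ := fun a => f (e.symm a))
        (σ := fun a => f' (U (e'.symm a)))
        (by rw [p1_pc]; exact transition h g) (by rw [p2_pc]; exact hU.holo e' f' _ h' g')
      rw [p1_pc, p2_pc] at this
      exact this
    rw [pw_pc h h', pw_pc g g', hj]
    simp only [p1_pc, p2_pc]
    rw [blk_transpose, blk_map, blk_mul, blk_mul, ← hw.change e f _ h g, ← hU.pres e' f' _ h' g']

omit [IsManifold 𝓘(ℂ, Cm n) ω X] [IsManifold 𝓘(ℂ, Cm k) ω Y] in
lemma scal_pw {u : X → ℝ} (hu : SmoothFn (n := n) u) (hg : IsHermitian (addDd w u))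
    (hw' : IsHermitian w') (h : At e x) (h' : At e' y) :
    scal (addDd (pw w w') (fun p => u p.1) (pc e e')) (pc e e' (x, y)) =
      scal (addDd w u e) (e x) + scal (w' e') (e' y) := by
  rw [scal_blk (addDd_pw_ev hu h h') (by rw [p1_pc]; exact hg.smooth e x h)
    (by rw [p2_pc]; exact hw'.smooth e' y h') (by rw [p1_pc]; exact posDef_ev hg.posDef h)
    (by rw [p2_pc]; exact posDef_ev hw'.posDef h'), p1_pc, p2_pc]

/-- A Calabi flow on `X × Y` from a product metric with a homogeneous second factor comes from a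
Calabi flow on `X`. -/
theorem descend [T2Space X] [CompactSpace X] [T2Space Y] [CompactSpace Y] (hw : IsKahler w)
    (hw' : IsKahler w') (y₀ : Y) (htr : ∀ y, ∃ U, IsIso w' U ∧ U y₀ = y) {s s' : ℝ}
    (hs' : ∀ e' y, At e' y → scal (w' e') (e' y) = s') {J : Set ℝ}
    (hJ : ∀ t ∈ J, 0 ≤ t ∧ Icc 0 t ⊆ J) {φ : ℝ → X × Y → ℝ}
    (h : IsCalabiFlow (pw w w') s J φ) : IsCalabiFlow w (s - s') J fun t x => φ t (x, y₀) := by
  have hW := isKahler_pw hw hw'
  have inv : ∀ t ∈ J, φ t = fun p => φ t (p.1, y₀) := by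
    intro t ht
    funext p
    rcases (hJ t ht).1.eq_or_lt with rfl | h0
    · rw [h.init, h.init]
    · obtain ⟨U, hU, hy⟩ := htr p.2
      have := (h.mono (hJ t ht).2).invariant (isIso_pw hw hU) hW h0 t ⟨h0.le, le_rfl⟩ (p.1, y₀)
      simpa only [hy] using this
  have h₀ := AMP.at_chartAt (n := k) y₀
  set e' : Chart k Y := chartAt (Cm k) y₀
  have hsm : ∀ t ∈ J, ∀ (e : Chart n X) x, At e x →
      ContDiffWithinAt ℝ ∞ (fun p : ℝ × Cm n => φ p.1 (e.symm p.2, y₀)) (J ×ˢ univ) (t, e x) := by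
    intro t ht e x hx
    have h1 : ContDiffAt ℝ ∞ (fun p : ℝ × Cm n => (p.1, (Fin.append p.2 (e' y₀) : Cm (n + k))))
        (t, e x) := contDiffAt_fst.prodMk (contDiffAt_append contDiffAt_snd contDiffAt_const)
    have h2 := ContDiffWithinAt.comp (t, e x)
      (g := fun p : ℝ × Cm (n + k) => φ p.1 ((pc e e').symm p.2))
      (h.smooth t ht _ _ (at_pc' hx h₀)) (h1.contDiffWithinAt (s := J ×ˢ univ))
      (t := J ×ˢ univ) fun p hp => ⟨hp.1, mem_univ _⟩
    simpa only [Function.comp_def, pc_symm, p1_append, p2_append, h₀.left_inv] using h2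
  have hfn : ∀ t ∈ J, SmoothFn (n := n) fun x => φ t (x, y₀) := by
    intro t ht e x hx
    have h1 := h.smoothFn ht _ _ (at_pc' hx h₀)
    have h2 := ContDiffAt.comp (e x) (g := fun z => φ t ((pc e e').symm z))
      (f := fun a => (Fin.append a (e' y₀) : Cm (n + k))) h1
      (contDiffAt_append contDiffAt_id contDiffAt_const)
    simpa only [Function.comp_def, pc_symm, p1_append, p2_append, h₀.left_inv] using h2
  have hpos : ∀ t ∈ J, ∀ e x, At e x → (addDd w (fun x => φ t (x, y₀)) e (e x)).PosDef := by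
    intro t ht e x hx
    have h1 := h.pos t ht _ _ (at_pc' hx h₀)
    rw [inv t ht, (addDd_pw_ev (hfn t ht) hx h₀).eq_of_nhds, p1_pc] at h1
    exact posDef_of_blk h1
  refine ⟨hsm, fun x => h.init _, hpos, fun t ht e x hx => ?_⟩
  have h1 := h.eqn t ht _ _ (at_pc' hx h₀)
  rw [inv t ht, scal_pw (hfn t ht) (isKahler_addDd hw (hfn t ht) (hpos t ht)).toIsHermitian
    hw'.toIsHermitian hx h₀, hs' _ _ h₀] at h1
  convert h1 using 1
  ring

end Vale.Agent.N264

end
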