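import Vale.Agent.N264.Prod

/-! # Restarting the Calabi flow; Fubini-Study metrics -/

open scoped Manifold ContDiff ComplexOrder Topology
open Set Filter

noncomputable section

namespace Vale.Agent.N264

open Vale.Agent.P272.K Vale.Agent.P264Z

variable {n : ℕ} {X : Type} [TopologicalSpace X] [ChartedSpace (Cm n) X]
  {w w₁ w₂ : Chart n X → Cm n → Matrix (Fin n) (Fin n) ℂ} {s s' t : ℝ} {J J' : Set ℝ}
  {φ φ' : ℝ → X → ℝ} {u v : X → ℝ}

lemma cHess_add_const (f : Cm n → ℝ) (c : ℝ) : cHess (fun y => f y + c) = cHess f := by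
  funext z
  ext i j
  rw [cHess_apply, cHess_apply]
  congr 1
  funext y
  simp only [dzb, Complex.ofReal_add, fderiv_add_const]

lemma shift_const (h : IsCalabiFlow w s J φ) (s' : ℝ) :
    IsCalabiFlow w s' J fun t x => φ t x + (s - s') * t := by
  have he : ∀ t e, addDd w (fun x => φ t x + (s - s') * t) e = addDd w (φ t) e := fun t e => by
    funext z
    unfold addDd
    rw [cHess_add_const (fun y => φ t (e.symm y))]
  refine ⟨fun t ht e x hx => (h.smooth t ht e x hx).add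
    (contDiffWithinAt_const.mul contDiffWithinAt_fst), fun x => by simp [h.init],
    fun t ht e x hx => by rw [he]; exact h.pos t ht _ x hx, fun t ht e x hx => ?_⟩
  rw [he]
  have h2 := (h.eqn t ht _ x hx).add ((hasDerivWithinAt_id t J).const_mul (s - s'))
  rw [show scal (addDd w (φ t) e) (e x) - s + (s - s') * 1 = scal (addDd w (φ t) e) (e x) - s' by
    ring] at h2
  exact h2

/-- the two forms agree in all charts -/
def Near (w₁ w₂ : Chart n X → Cm n → Matrix (Fin n) (Fin n) ℂ) : Prop :=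
  ∀ e x, At e x → w₁ e =ᶠ[𝓝 (e x)] w₂ e

lemma Near.symm (h : Near w₁ w₂) : Near w₂ w₁ := fun e x hx => (h e x hx).symm

lemma Near.addDd (h : Near w₁ w₂) (v : X → ℝ) : Near (addDd w₁ v) (addDd w₂ v) := fun e x hx => by
  filter_upwards [h e x hx] with z hz
  unfold P264Z.addDd
  rw [hz]

lemma near_addDd (hu : SmoothFn (n := n) u) (hv : SmoothFn (n := n) v) :
    Near (addDd (addDd w u) v) (addDd w fun x => u x + v x) := fun e x hx => by
  filter_upwards [hx.nhds_target] with z hz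
  have h1 := hu e _ (At.of_target hx.1 hz)
  have h2 := hv e _ (At.of_target hx.1 hz)
  rw [e.right_inv hz] at h1 h2
  unfold addDd
  rw [cHess_add (h1.of_le two_le) (h2.of_le two_le), add_assoc]

lemma flow_congr (hn : Near w₁ w₂) (h : IsCalabiFlow w₁ s J φ) : IsCalabiFlow w₂ s J φ :=
  ⟨h.smooth, h.init, fun t ht e x hx => by
    rw [← (hn.addDd (φ t) e x hx).eq_of_nhds]; exact h.pos t ht e x hx, fun t ht e x hx => by
    rw [← scal_congr (hn.addDd (φ t) e x hx)]; exact h.eqn t ht e x hx⟩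

/-- the flow equation at the time `t` -/
def SolAt (w : Chart n X → Cm n → Matrix (Fin n) (Fin n) ℂ) (s : ℝ) (J : Set ℝ)
    (φ : ℝ → X → ℝ) (t : ℝ) : Prop :=
  ∀ e x, At e x →
    ContDiffWithinAt ℝ ∞ (fun p : ℝ × Cm n => φ p.1 (e.symm p.2)) (J ×ˢ univ) (t, e x) ∧
    (addDd w (φ t) e (e x)).PosDef ∧
    HasDerivWithinAt (fun τ => φ τ x) (scal (addDd w (φ t) e) (e x) - s) J t

lemma solAt_of_flow (h : IsCalabiFlow w s J φ) (ht : t ∈ J) : SolAt w s J φ t :=
  fun e x hx => ⟨h.smooth t ht e x hx, h.pos t ht e x hx, h.eqn t ht e x hx⟩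

lemma flow_of_solAt (h : ∀ t ∈ J, SolAt w s J φ t) (h0 : ∀ x, φ 0 x = 0) :
    IsCalabiFlow w s J φ :=
  ⟨fun t ht e x hx => (h t ht e x hx).1, h0, fun t ht e x hx => (h t ht e x hx).2.1,
    fun t ht e x hx => (h t ht e x hx).2.2⟩

lemma SolAt.congr (h : SolAt w s J' φ' t) {N : Set ℝ} (hN : N ∈ 𝓝 t) (ht : t ∈ J)
    (hJ : J ∩ N ⊆ J') (hφ : ∀ τ ∈ J ∩ N, φ τ = φ' τ) : SolAt w s J φ t := by
  intro e x hx
  have e0 := hφ t ⟨ht, mem_of_mem_nhds hN⟩
  obtain ⟨h1, h2, h3⟩ := h e x hx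
  refine ⟨?_, by rw [e0]; exact h2, ?_⟩
  · have h4 : (J ∩ N) ×ˢ (univ : Set (Cm n)) ∈ 𝓝[J ×ˢ univ] (t, e x) := by
      refine mem_nhdsWithin_iff_exists_mem_nhds_inter.2 ⟨N ×ˢ univ, prod_mem_nhds hN univ_mem, ?_⟩
      rintro p ⟨hp1, hp2⟩
      exact ⟨⟨hp2.1, hp1.1⟩, trivial⟩
    refine ((h1.mono (prod_mono hJ le_rfl)).congr (fun p hp => ?_) ?_).mono_of_mem_nhdsWithin h4
    · rw [hφ _ hp.1]
    · simp only [e0]
  · rw [e0]
    refine ((h3.mono hJ).congr (fun τ hτ => ?_) ?_).mono_of_mem_nhdsWithin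
      (inter_mem_nhdsWithin J hN)
    · rw [hφ _ hτ]
    · rw [e0]

lemma SolAt.shift (h : SolAt w₁ s J φ t) (hu : SmoothFn (n := n) u) (c : ℝ)
    (hn : Near (addDd w₁ (φ t)) (addDd w₂ fun x => u x + φ t x)) :
    SolAt w₂ s {τ | τ - c ∈ J} (fun τ x => u x + φ (τ - c) x) (t + c) := by
  intro e x hx
  obtain ⟨h1, h2, h3⟩ := h e x hx
  simp only [add_sub_cancel_right]
  refine ⟨?_, by rw [← (hn e x hx).eq_of_nhds]; exact h2, ?_⟩
  · refine ContDiffWithinAt.add (ContDiffAt.comp (g := fun z => u (e.symm z)) (t + c, e x)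
      (hu e x hx) contDiffAt_snd).contDiffWithinAt ?_
    have h4 : ContDiffAt ℝ ∞ (fun p : ℝ × Cm n => (p.1 - c, p.2)) (t + c, e x) :=
      (contDiffAt_fst.sub contDiffAt_const).prodMk contDiffAt_snd
    exact ContDiffWithinAt.comp (t + c, e x) (g := fun p : ℝ × Cm n => φ p.1 (e.symm p.2))
      (by simpa using h1) h4.contDiffWithinAt (t := J ×ˢ univ) fun p hp => ⟨hp.1, trivial⟩
  · rw [← scal_congr (hn e x hx)]
    refine HasDerivWithinAt.const_add _ ?_
    have h5 := HasDerivWithinAt.comp (t + c) (h₂ := fun τ => φ τ x) (h := fun τ => τ - c)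
      (s' := J) (s := {τ | τ - c ∈ J}) (by simpa using h3)
      ((hasDerivWithinAt_id _ _).sub_const c) fun τ hτ => hτ
    simpa [Function.comp_def] using h5

/-- If the flow from `w + i∂∂̄u` does not live longer than `1`, then for every `ε > 0` the class
of `w` contains a Kähler form whose flow does not live longer than `ε`. -/
theorem short_time [IsManifold 𝓘(ℂ, Cm n) ω X] [T2Space X] [CompactSpace X] (hw : IsKahler w)
    (hno : ∀ T > 1, ¬∃ φ, IsCalabiFlow w 0 (Ico 0 T) φ) {ε : ℝ} (hε : 0 < ε) :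
    ∃ u, SmoothFn (n := n) u ∧ IsKahler (addDd w u) ∧
      ∀ s, ∀ T > ε, ¬∃ φ, IsCalabiFlow (addDd w u) s (Ico 0 T) φ := by
  let A : Set ℝ := {T | ε < T ∧ ∃ φ, IsCalabiFlow w 0 (Ico 0 T) φ}
  rcases A.eq_empty_or_nonempty with hA | hA
  · have e0 : addDd w (fun _ => 0) = w := by
      funext e z
      simp [addDd, cHess_const]
    refine ⟨fun _ => 0, AMP.smoothFn_const 0, by rwa [e0], fun s T hT ⟨φ, hφ⟩ => ?_⟩
    rw [e0] at hφ
    exact (hA ▸ (⟨hT, _, shift_const hφ 0⟩ : T ∈ A) : T ∈ (∅ : Set ℝ))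
  have hbd : BddAbove A := ⟨1, fun T hT => not_lt.1 fun h => hno T h hT.2⟩
  obtain ⟨T₀, ⟨hT₀, φ, hφ⟩, hsup⟩ := exists_lt_of_lt_csSup hA (show sSup A - ε / 2 < sSup A by
    linarith)
  have ht0 : T₀ - ε / 2 ∈ Ico 0 T₀ := ⟨by linarith, by linarith⟩
  set t₀ := T₀ - ε / 2 with ht₀
  have hu := hφ.smoothFn ht0
  have hK := hφ.isKahler hw ht0
  refine ⟨φ t₀, hu, hK, fun s T hT ⟨ψ₀, hψ₀⟩ => ?_⟩
  have hψ := shift_const hψ₀ 0
  set ψ : ℝ → X → ℝ := fun t x => ψ₀ t x + (s - 0) * t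
  have hre : IsCalabiFlow (addDd w (φ t₀)) 0 (Ico 0 (ε / 2))
      fun τ x => -φ t₀ x + φ (τ - -t₀) x := by
    refine flow_of_solAt (fun τ hτ => ?_) (fun x => by simp)
    have hτ' : τ + t₀ ∈ Ico 0 T₀ := ⟨by linarith [hτ.1, ht0.1], by linarith [hτ.2]⟩
    have h1 := (solAt_of_flow hφ hτ').shift (w₂ := addDd w (φ t₀)) (AMP.sm_neg hu) (-t₀) (by
      refine Near.symm ?_
      have := near_addDd (w := w) hu (AMP.sm_add (AMP.sm_neg hu) (hφ.smoothFn hτ'))
      simpa using this)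
    rw [add_neg_cancel_right] at h1
    exact h1.congr univ_mem hτ (fun σ hσ => ⟨by linarith [hσ.1.1, ht0.1], by linarith [hσ.1.2]⟩)
      fun _ _ => rfl
  have hagree : ∀ τ, t₀ ≤ τ → τ < T₀ → (fun x => φ t₀ x + ψ (τ - t₀) x) = φ τ := by
    intro τ h1 h2
    funext x
    rcases h1.eq_or_lt with rfl | h1
    · rw [sub_self, hψ.init, add_zero]
    · have := (hre.mono (Icc_subset_Ico_right (show τ - t₀ < ε / 2 by linarith))).unique hK
        (sub_pos.2 h1) (hψ.mono (Icc_subset_Ico_right (show τ - t₀ < T by linarith))) (τ - t₀)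
        ⟨by linarith, le_rfl⟩ x
      rw [← this]
      simp
  have hglue : IsCalabiFlow w 0 (Ico 0 (t₀ + T))
      fun τ => if τ < t₀ then φ τ else fun x => φ t₀ x + ψ (τ - t₀) x := by
    refine flow_of_solAt (fun τ hτ => ?_) (fun x => by
      rw [if_pos (by linarith)]; exact hφ.init x)
    by_cases h1 : τ < T₀
    · refine (solAt_of_flow hφ ⟨hτ.1, h1⟩).congr (Iio_mem_nhds h1) hτ
        (fun σ hσ => ⟨hσ.1.1, hσ.2⟩) fun σ hσ => ?_
      split_ifs with h2
      · rfl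
      · exact hagree σ (not_lt.1 h2) hσ.2
    · have h2 : t₀ < τ := by linarith [ht0.2]
      have h3 : τ - t₀ ∈ Ico 0 T := ⟨by linarith, by linarith [hτ.2]⟩
      have h4 := (solAt_of_flow hψ h3).shift (w₂ := w) hu t₀ (near_addDd hu (hψ.smoothFn h3))
      rw [sub_add_cancel] at h4
      refine h4.congr (Ioi_mem_nhds h2) hτ
        (fun σ hσ => ⟨by linarith [mem_Ioi.1 hσ.2], by linarith [hσ.1.2]⟩) fun σ hσ => ?_
      rw [if_neg (not_lt.2 (le_of_lt hσ.2))]
  have := le_csSup hbd (show t₀ + T ∈ A from ⟨by linarith [ht0.1], _, hglue⟩)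
  linarith

section FS

variable {b : ℝ}

lemma isKahler_fs (hb : 0 < b) : IsKahler (fs (n := n) b) :=
  isKahler_of_closed (isClosedForm_fs b) fun e _ _ => Sc.fs_posDef hb e _

lemma ric_fs (hb : 0 < b) (e : Chart n (CP n)) (z : Cm n) :
    -cHess (fun y => Real.log (fs b e y).det.re) z = (((n + 1) / b : ℝ) : ℂ) • fs b e z := by
  have h1 : (fun y : Cm n => Real.log (fs b e y).det.re) =
      fun y => -((n + 1) / b) * (b * Real.log (1 + nsq y)) + n * Real.log b := by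
    funext y
    have h := FS.one_add_pos y
    rw [FS.fs_eq, det_rad (by positivity), show (b / (1 + nsq y) + -b / (1 + nsq y) ^ 2 * nsq y) /
      (b / (1 + nsq y)) = (1 + nsq y)⁻¹ by field_simp; ring,
      Real.log_mul (by positivity) (by positivity), Real.log_pow, Real.log_inv,
      Real.log_div hb.ne' h.ne']
    field_simp
    ring
  rw [h1, cHess_add_const, cHess_const_mul _ (FS.contDiff_pot b).contDiffAt, ← neg_smul]
  simp [fs]

lemma scal_of_ke {g : Cm n → Matrix (Fin n) (Fin n) ℂ} {z : Cm n} {l : ℝ} (hp : (g z).PosDef)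
    (h : -cHess (fun y => Real.log (g y).det.re) z = (l : ℂ) • g z) : scal g z = n * l := by
  unfold scal
  rw [h, Matrix.mul_smul, Matrix.nonsing_inv_mul _ hp.det_pos.ne'.isUnit]
  simp [mul_comm]

lemma exists_unitary {u v : Fin (n + 1) → ℂ} (h : nsq u = nsq v) :
    ∃ A : (Fin (n + 1) → ℂ) →L[ℂ] (Fin (n + 1) → ℂ), (∀ x, nsq (A x) = nsq x) ∧ A u = v := by
  obtain ⟨A, h1, h2, h3⟩ := Iso.exists_unitary (n := n + 1) (u := Fin.cons 0 u) (v := Fin.cons 0 v)
    (by simpa [nsq, Fin.sum_univ_succ] using h) rfl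
  let I : (Fin (n + 1) → ℂ) →L[ℂ] (Fin (n + 1 + 1) → ℂ) :=
    ContinuousLinearMap.pi fun i => Fin.cases 0 (fun j => ContinuousLinearMap.proj j) i
  let P : (Fin (n + 1 + 1) → ℂ) →L[ℂ] (Fin (n + 1) → ℂ) :=
    ContinuousLinearMap.pi fun j => ContinuousLinearMap.proj j.succ
  have hI : ∀ x, I x = Fin.cons 0 x := fun x => funext fun i => by
    induction i using Fin.cases <;> rfl
  refine ⟨P.comp (A.comp I), fun x => ?_, ?_⟩
  · have h4 := h1 (I x)
    have h5 := h2 (I x)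
    rw [nsq, Fin.sum_univ_succ, h5, hI] at h4
    simpa [nsq, Fin.sum_univ_succ, P, hI] using h4
  · funext j
    simp [P, hI, h3]

lemma isIso_fs {A : (Fin (n + 1) → ℂ) →L[ℂ] (Fin (n + 1) → ℂ)} (hA : ∀ x, nsq (A x) = nsq x) :
    IsIso (fs (n := n) b) (Iso.act hA) where
  cont := Iso.continuous_act hA
  holo := by
    rintro e e' x ⟨⟨i, rfl⟩, hx⟩ ⟨⟨k, rfl⟩, hx'⟩
    have hk := Iso.ne_of_at hA ⟨mem_range_self i, hx⟩ ⟨mem_range_self k, hx'⟩
    rw [Iso.chart_act]
    exact Iso.holo_aff hk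
  pres := by
    rintro e e' x ⟨⟨i, rfl⟩, hx⟩ ⟨⟨k, rfl⟩, hx'⟩
    have hk := Iso.ne_of_at hA ⟨mem_range_self i, hx⟩ ⟨mem_range_self k, hx'⟩
    have hxz : CP.chart k (Iso.act hA x) = CP.aff k (A (CP.ins i (CP.chart i x))) := by
      rw [← congrFun (Iso.chart_act hA i k) (CP.chart i x), (CP.chart i).left_inv hx]
    rw [Iso.chart_act, hxz]
    generalize CP.chart i x = z at hk ⊢
    have hτ : ContDiffAt ℂ ω (fun z : Cm n => CP.aff k (A (CP.ins i z))) z := Iso.holo_aff hk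
    have hG : ContDiffAt ℂ ω (fun z : Cm n => A (CP.ins i z) k) z :=
      (contDiff_pi.1 (Iso.holo_lin i) k).contDiffAt
    have hP : ContDiff ℝ 2 fun y : Cm n => b * Real.log (1 + nsq y) := FS.contDiff_pot b
    have hτ' : ContDiffAt ℝ 2 (fun z : Cm n => CP.aff k (A (CP.ins i z))) z :=
      (hτ.restrict_scalars ℝ).of_le le_top
    have hl : ContDiffAt ℝ 2 (fun y : Cm n => Real.log (‖A (CP.ins i y) k‖ ^ 2)) z :=
      (((hG.restrict_scalars ℝ).of_le le_top).norm_sq ℝ).log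
        (pow_ne_zero 2 (norm_ne_zero_iff.2 hk))
    have e1 : (fun y : Cm n => b * Real.log (1 + nsq y)) =ᶠ[𝓝 z] fun y =>
        b * Real.log (1 + nsq (CP.aff k (A (CP.ins i y)))) +
          b * Real.log (‖A (CP.ins i y) k‖ ^ 2) := by
      filter_upwards [hG.continuousAt.eventually_ne hk] with y hy
      have h1 : 1 + nsq y = (1 + nsq (CP.aff k (A (CP.ins i y)))) * ‖A (CP.ins i y) k‖ ^ 2 := by
        rw [← Iso.nsq_ins i, ← Iso.nsq_ins k, mul_comm, ← Iso.nsq_smul, CP.smul_ins_aff k hy, hA]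
      have h2 := Iso.nsq_nonneg (CP.aff k (A (CP.ins i y)))
      rw [h1, Real.log_mul (by positivity) (pow_ne_zero 2 (norm_ne_zero_iff.2 hy)), mul_add]
    have c1 := cHess_comp (f := fun y : Cm n => b * Real.log (1 + nsq y)) hP.contDiffAt hτ
    show cHess (fun y => b * Real.log (1 + nsq y)) z =
      _ * cHess (fun y => b * Real.log (1 + nsq y)) _ * _
    rw [cHess_congr e1,
      cHess_add (f := fun y => b * Real.log (1 + nsq (CP.aff k (A (CP.ins i y)))))
        (hP.contDiffAt.comp z hτ') (contDiffAt_const.mul hl),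
      cHess_const_mul b hl, cHess_log_norm_sq hG hk, smul_zero, add_zero, c1]

lemma fs_transitive (p q : CP n) : ∃ U, IsIso (fs (n := n) b) U ∧ U p = q := by
  obtain ⟨u, rfl, hu⟩ := Iso.exists_norm p
  obtain ⟨v, rfl, hv⟩ := Iso.exists_norm q
  obtain ⟨A, hA, huv⟩ := exists_unitary (hu.trans hv.symm)
  refine ⟨Iso.act hA, isIso_fs hA, ?_⟩
  rw [Iso.act_mk]
  congr 1
  exact Subtype.ext huv

end FS

end Vale.Agent.N264

end
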